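import Vale.Agent.P139.A.Defs
import Mathlib.Analysis.Fourier.AddCircle
import Mathlib.Analysis.Calculus.ContDiff.Defs

/-!
# P139: functions on the torus, Sobolev spaces by weak derivatives, distributional solutions
-/

open Set MeasureTheory ProbabilityTheory
open scoped ENNReal ContDiff

namespace Vale.Agent.P139L

open Vale.Agent.P139.A

noncomputable section

/-- The torus `(ℝ/2πℤ)^d`. -/
abbrev Tor (d : ℕ) : Type := Fin d → AddCircle (2 * Real.pi)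

/-- Normalised Lebesgue measure on the torus. -/
def vol (d : ℕ) : Measure (Tor d) :=
  Measure.pi fun _ => @AddCircle.haarAddCircle (2 * Real.pi) ⟨Real.two_pi_pos⟩

/-- `L²(T^d; ℂ)`. -/
abbrev L2 (d : ℕ) : Type := Lp ℂ 2 (vol d)

variable {d : ℕ}

/-- The projection `ℝ^d → T^d`. -/
def pr (x : Fin d → ℝ) : Tor d := fun j => (x j : AddCircle (2 * Real.pi))

/-- The character `e^{i n·x}` on the torus. -/
def ech (n : Fin d → ℤ) (z : Tor d) : ℂ := ∏ j, fourier (n j) (z j)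

/-- The partial derivative `∂_j φ`. -/
def pd (j : Fin d) (φ : Tor d → ℂ) (z : Tor d) : ℂ :=
  deriv (fun s : ℝ => φ (z + pr (Pi.single j s))) 0

/-- The Laplacian. -/
def lap (φ : Tor d → ℂ) (z : Tor d) : ℂ := ∑ j, pd j (pd j φ) z

/-- `g` is the weak derivative `∂_j f`. -/
def IsWD (j : Fin d) (f g : L2 d) : Prop :=
  ∀ φ : Tor d → ℂ, ContDiff ℝ ∞ (fun x => φ (pr x)) →
    ∫ z, g z * φ z ∂vol d = -∫ z, f z * pd j φ z ∂vol d

/-- `D [j₁, …, j_l]` is the weak derivative `∂_{j₁} ⋯ ∂_{j_l} f` in `L²`, for `l ≤ k`. -/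
def Jet (k : ℕ) (f : L2 d) (D : List (Fin d) → L2 d) : Prop :=
  D [] = f ∧ ∀ j w, w.length < k → IsWD j (D w) (D (j :: w))

/-- `f ∈ H^k(T^d)`. -/
def InH (k : ℕ) (f : L2 d) : Prop := ∃ D, Jet k f D

/-- The time interval `[0, T)`. -/
def dom (T : ℝ≥0∞) : Set ℝ := {t | 0 ≤ t ∧ ENNReal.ofReal t < T}

/-- `u ∈ C([0, T); H^k(T^d))`. -/
def ContH (k : ℕ) (T : ℝ≥0∞) (u : ℝ → L2 d) : Prop :=
  ∃ D : ℝ → List (Fin d) → L2 d, (∀ t ∈ dom T, Jet k (u t) (D t)) ∧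
    ∀ w : List (Fin d), w.length ≤ k → ContinuousOn (fun t => D t w) (dom T)

/-- `ψ ∈ C_c^∞((0, T) × T^d)`. -/
def Test (T : ℝ≥0∞) (ψ : ℝ → Tor d → ℂ) : Prop :=
  ContDiff ℝ ∞ (fun q : ℝ × (Fin d → ℝ) => ψ q.1 (pr q.2)) ∧
    ∃ a b : ℝ, 0 < a ∧ ENNReal.ofReal b < T ∧ ∀ t ∉ Icc a b, ψ t = 0

/-- `u ∈ C([0, T); H^k)` solves `i ∂_t u + Δ u = |u|^{p-1} u` in the sense of distributions on
`(0, T) × T^d`. -/
def Sol (p k : ℕ) (T : ℝ≥0∞) (u : ℝ → L2 d) : Prop :=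
  ContH k T u ∧ ∀ ψ, Test T ψ →
    ∫ t in dom T, ∫ z, (-Complex.I * (u t z * deriv (fun s => ψ s z) t) + u t z * lap (ψ t) z -
      (‖u t z‖ : ℂ) ^ (p - 1) * u t z * ψ t z) ∂vol d = 0

/-- `u` is a maximal solution with datum `u₀` and lifespan `T`: it has no proper extension. -/
def IsMax (p k : ℕ) (u₀ : L2 d) (T : ℝ≥0∞) (u : ℝ → L2 d) : Prop :=
  Sol p k T u ∧ u 0 = u₀ ∧ ∀ T' u', Sol p k T' u' → T ≤ T' → EqOn u u' (dom T) → T' = T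

/-- The `g_n` are independent standard complex Gaussian random variables. -/
def Gauss {Ω : Type} [MeasurableSpace Ω] (P : Measure Ω) (g : (Fin d → ℤ) → Ω → ℂ) : Prop :=
  IsProbabilityMeasure P ∧ (∀ n, Measurable (g n)) ∧ iIndepFun g P ∧
    ∀ n, P.map (g n) = stdComplexGaussian

/-- `u₀(x) = ∑ g_n(o) ⟨n⟩^{-α} e^{i n·x}` almost everywhere. -/
def IsDatum {Ω : Type} (g : (Fin d → ℤ) → Ω → ℂ) (α : ℝ) (o : Ω) (u₀ : L2 d) : Prop :=
  ∀ᵐ z ∂vol d, HasSum (fun n => datum g α o n * ech n z) (u₀ z)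

/-- The statement of the question, with `k` and the probability space chosen at will. -/
def Question : Prop :=
  ∀ d p : ℕ, 1 ≤ d → Odd p → 3 ≤ p → 1 < (d : ℝ) / 2 - 2 / ((p : ℝ) - 1) →
    ∃ α₀ : ℝ, ∀ α : ℝ, α₀ < α → ∃ k : ℕ, d < 2 * k ∧ (k : ℝ) < α - (d : ℝ) / 2 ∧
      ∃ (Ω : Type) (_ : MeasurableSpace Ω) (P : Measure Ω) (g : (Fin d → ℤ) → Ω → ℂ),
        Gauss P g ∧ ∀ᵐ o ∂P, ∃ u₀ u, IsDatum g α o u₀ ∧ IsMax p k u₀ ⊤ u

end

end Vale.Agent.P139L
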