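import Vale.Agent.P139L62.Defs
import Mathlib.MeasureTheory.Integral.Pi
import Mathlib.Analysis.Calculus.ParametricIntegral
import Mathlib.MeasureTheory.Group.Integral

/-!
# P139: the Fourier basis of the torus, integration by parts
-/

open Set MeasureTheory Filter Topology Submodule
open scoped ENNReal ContDiff ComplexConjugate

namespace Vale.Agent.P139L

open Vale.Agent.P139.A

noncomputable section

local instance fact2pi : Fact (0 < 2 * Real.pi) := ⟨Real.two_pi_pos⟩

variable {d : ℕ}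

instance volProb : IsProbabilityMeasure (vol d) := by
  unfold vol
  infer_instance

instance volInv : (vol d).IsAddRightInvariant := by
  unfold vol
  infer_instance

instance volPos : (vol d).IsOpenPosMeasure := by
  unfold vol
  infer_instance

instance torCompact : CompactSpace (Tor d) := inferInstance

theorem pr_add (x y : Fin d → ℝ) : pr (x + y) = pr x + pr y := rfl

theorem pr_zero : pr (0 : Fin d → ℝ) = 0 := rfl

theorem pr_quot : IsOpenQuotientMap (pr : (Fin d → ℝ) → Tor d) :=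
  IsOpenQuotientMap.piMap fun _ => QuotientAddGroup.isOpenQuotientMap_mk

theorem ech_pr (n : Fin d → ℤ) (x : Fin d → ℝ) : ech n (pr x) = expi n x := by
  simp only [ech, pr, fourier_coe_apply, expi, Finset.mul_sum, Complex.exp_sum]
  refine Finset.prod_congr rfl fun j _ => congrArg _ ?_
  have : (Real.pi : ℂ) ≠ 0 := by exact_mod_cast Real.pi_ne_zero
  push_cast
  field_simp

/-- The characters as continuous maps. -/
def eC (n : Fin d → ℤ) : C(Tor d, ℂ) := ⟨ech n, by unfold ech; fun_prop⟩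

theorem ech_neg (n : Fin d → ℤ) (z : Tor d) : ech (-n) z = conj (ech n z) := by
  simp only [ech, Pi.neg_apply, fourier_neg, map_prod]

theorem ech_add (m n : Fin d → ℤ) (z : Tor d) : ech (m + n) z = ech m z * ech n z := by
  simp only [ech, Pi.add_apply, fourier_add, Finset.prod_mul_distrib]

theorem ech_zero (z : Tor d) : ech 0 z = 1 := by simp [ech]

theorem norm_ech (n : Fin d → ℤ) (z : Tor d) : ‖ech n z‖ = 1 := by
  simp only [ech, fourier_apply, norm_prod, Circle.norm_coe, Finset.prod_const_one]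

theorem norm_eC (n : Fin d → ℤ) : ‖eC n‖ ≤ 1 :=
  (ContinuousMap.norm_le _ zero_le_one).2 fun z => (norm_ech n z).le

theorem span_eC : (span ℂ (range (eC (d := d)))).topologicalClosure = ⊤ := by
  classical
  let A : StarSubalgebra ℂ C(Tor d, ℂ) :=
    { toSubalgebra := Algebra.adjoin ℂ (range eC)
      star_mem' := by
        change Algebra.adjoin ℂ (range eC) ≤ star (Algebra.adjoin ℂ (range eC))
        refine Algebra.adjoin_le ?_
        rintro _ ⟨n, rfl⟩
        exact Algebra.subset_adjoin ⟨-n, ContinuousMap.ext fun x => ech_neg n x⟩ }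
  have h1 : A.toSubalgebra.toSubmodule = span ℂ (range eC) := by
    apply Algebra.adjoin_eq_span_of_subset
    refine .trans (fun x ↦ Submonoid.closure_induction (fun _ ↦ id) ⟨0, ?_⟩ ?_) subset_span
    · exact ContinuousMap.ext ech_zero
    · rintro _ _ _ _ ⟨m, rfl⟩ ⟨n, rfl⟩
      exact ⟨m + n, ContinuousMap.ext (ech_add m n)⟩
  have h3 : ∀ (i : Fin d) (z : Tor d), eC (Pi.single i 1) z = fourier 1 (z i) := fun i z => by
    change ∏ j : Fin d, fourier ((Pi.single i 1 : Fin d → ℤ) j) (z j) = _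
    rw [Finset.prod_eq_single i (fun j _ hj => by simp [Pi.single_eq_of_ne hj]) (by simp),
      Pi.single_eq_same]
  have h2 : A.SeparatesPoints := by
    intro x y hxy
    obtain ⟨i, hi⟩ := Function.ne_iff.1 hxy
    refine ⟨_, ⟨eC (Pi.single i 1), Algebra.subset_adjoin ⟨Pi.single i 1, rfl⟩, rfl⟩, ?_⟩
    dsimp only
    rw [h3, h3, fourier_one, fourier_one]
    exact fun h => hi (AddCircle.injective_toCircle Real.two_pi_pos.ne' (Circle.coe_injective h))
  rw [← h1]
  exact congr_arg (Subalgebra.toSubmodule <| StarSubalgebra.toSubalgebra ·)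
    (ContinuousMap.starSubalgebra_topologicalClosure_eq_top_of_separatesPoints _ h2)

/-- Continuous functions as elements of `L²`. -/
def toL : C(Tor d, ℂ) →L[ℂ] L2 d := ContinuousMap.toLp (E := ℂ) 2 (vol d) ℂ

theorem toL_ae (f : C(Tor d, ℂ)) : toL f =ᵐ[vol d] f := ContinuousMap.coeFn_toLp (vol d) f

theorem orth : Orthonormal ℂ fun n : Fin d → ℤ => toL (eC n) := by
  classical
  rw [orthonormal_iff_ite]
  intro m n
  simp only [toL, ContinuousMap.inner_toLp]
  change ∫ z, ech n z * conj (ech m z) ∂vol d = _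
  simp only [← ech_neg, ← ech_add]
  split_ifs with h
  · simp [h, ech_zero]
  simp only [ech, vol]
  rw [integral_fintype_prod_eq_prod]
  obtain ⟨i, hi⟩ := Function.ne_iff.mp h
  apply Finset.prod_eq_zero (Finset.mem_univ i)
  simpa only [eq_false_intro hi, if_false, ContinuousMap.inner_toLp, ← fourier_neg,
    ← fourier_add] using! (orthonormal_iff_ite.mp <| orthonormal_fourier (T := 2 * Real.pi))
      (m i) (n i)

/-- The Fourier basis. -/
def FB (d : ℕ) : HilbertBasis (Fin d → ℤ) ℂ (L2 d) := HilbertBasis.mk orth (by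
  have h := (ContinuousMap.toLp_denseRange ℂ (vol d) ℂ (p := 2)
    (by simp)).topologicalClosure_map_submodule span_eC
  simp only [map_span, ContinuousLinearMap.coe_coe, ← range_comp, Function.comp_def] at h
  exact h.ge)

theorem FB_apply (n : Fin d → ℤ) : FB d n = toL (eC n) := congrFun (HilbertBasis.coe_mk _ _) n

/-- The Fourier coefficients. -/
def co (f : L2 d) (n : Fin d → ℤ) : ℂ := (FB d).repr f n

theorem co_eq (f : L2 d) (n : Fin d → ℤ) : co f n = ∫ z, f z * ech (-n) z ∂vol d := by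
  rw [co, (FB d).repr_apply_apply, FB_apply, L2.inner_def]
  refine integral_congr_ae ?_
  filter_upwards [toL_ae (eC n)] with z hz
  rw [RCLike.inner_apply, hz, ech_neg]
  rfl

theorem co_sub (f g : L2 d) (n : Fin d → ℤ) : co (f - g) n = co f n - co g n := by
  simp [co]

theorem co_ext {f g : L2 d} (h : co f = co g) : f = g :=
  (FB d).repr.injective (lp.ext h)

theorem continuous_co (n : Fin d → ℤ) : Continuous fun f : L2 d => co f n := by
  simp only [co, HilbertBasis.repr_apply_apply]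
  fun_prop

theorem hasSum_co (f : L2 d) : HasSum (fun n => ‖co f n‖ ^ 2) (‖f‖ ^ 2) := by
  have h := lp.hasSum_norm (p := 2) (by norm_num) ((FB d).repr f)
  simpa [co] using h

/-- The pairing with the characters. -/
def cc (φ : Tor d → ℂ) (n : Fin d → ℤ) : ℂ := ∫ z, φ z * ech n z ∂vol d

theorem co_toL (φ : C(Tor d, ℂ)) (n : Fin d → ℤ) : co (toL φ) (-n) = cc φ n := by
  rw [co_eq, neg_neg]
  exact integral_congr_ae ((toL_ae φ).mul EventuallyEq.rfl)

theorem parseval (f : L2 d) (φ : C(Tor d, ℂ)) :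
    HasSum (fun n => co f n * cc φ n) (∫ z, f z * φ z ∂vol d) := by
  have h := (FB d).hasSum_inner_mul_inner (toL (star φ)) f
  have h1 : inner ℂ (toL (star φ)) f = ∫ z, f z * φ z ∂vol d := by
    rw [L2.inner_def]
    refine integral_congr_ae ?_
    filter_upwards [toL_ae (star φ)] with z hz
    rw [RCLike.inner_apply, hz]
    simp
  rw [h1] at h
  refine h.congr_fun fun n => ?_
  rw [mul_comm, co, (FB d).repr_apply_apply, FB_apply, toL, ContinuousMap.inner_toLp]
  congr 1
  refine integral_congr_ae (Eventually.of_forall fun z => ?_)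
  simp [eC, mul_comm]

theorem dui {F F' : ℝ → Tor d → ℂ} (hF : Continuous fun q : ℝ × Tor d => F q.1 q.2)
    (hF' : Continuous fun q : ℝ × Tor d => F' q.1 q.2)
    (h : ∀ s z, HasDerivAt (fun s => F s z) (F' s z) s) (t : ℝ) :
    HasDerivAt (fun s => ∫ z, F s z ∂vol d) (∫ z, F' t z ∂vol d) t := by
  obtain ⟨C, hC⟩ := ((isCompact_closedBall t 1).prod isCompact_univ).exists_bound_of_continuousOn
    hF'.continuousOn
  have h1 : ∀ s, Continuous (F s) := fun s => hF.comp (Continuous.prodMk_right s)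
  exact (hasDerivAt_integral_of_dominated_loc_of_deriv_le (Metric.ball_mem_nhds t one_pos)
    (Eventually.of_forall fun s => (h1 s).aestronglyMeasurable)
    ((h1 t).integrable_of_hasCompactSupport (HasCompactSupport.of_compactSpace _))
    (hF'.comp (Continuous.prodMk_right t)).aestronglyMeasurable
    (Eventually.of_forall fun z s hs => hC (s, z) ⟨Metric.ball_subset_closedBall hs, trivial⟩)
    (integrable_const C) (Eventually.of_forall fun z s _ => h s z)).2

/-- Smoothness of a function of time and position. -/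
def JS (ψ : ℝ → Tor d → ℂ) : Prop := ContDiff ℝ ∞ fun q : ℝ × (Fin d → ℝ) => ψ q.1 (pr q.2)

theorem JS.cont {ψ : ℝ → Tor d → ℂ} (h : JS ψ) : Continuous fun q : ℝ × Tor d => ψ q.1 q.2 :=
  (IsOpenQuotientMap.id.prodMap pr_quot).continuous_comp_iff.1 h.continuous

theorem JS.line {ψ : ℝ → Tor d → ℂ} (h : JS ψ) (q v : ℝ × (Fin d → ℝ)) (s : ℝ) :
    HasDerivAt (fun s : ℝ => ψ (q + s • v).1 (pr (q + s • v).2))
      (fderiv ℝ (fun q : ℝ × (Fin d → ℝ) => ψ q.1 (pr q.2)) (q + s • v) v) s := by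
  have h1 : HasDerivAt (fun s : ℝ => q + s • v) v s := by
    simpa using ((hasDerivAt_id s).smul_const v).const_add q
  exact ((h.differentiable (by simp)) _).hasFDerivAt.comp_hasDerivAt s h1

theorem JS.hasDt {ψ : ℝ → Tor d → ℂ} (h : JS ψ) (t : ℝ) (x : Fin d → ℝ) :
    HasDerivAt (fun s => ψ s (pr x))
      (fderiv ℝ (fun q : ℝ × (Fin d → ℝ) => ψ q.1 (pr q.2)) (t, x) (1, 0)) t := by
  simpa using h.line (0, x) (1, 0) t

theorem JS.hasDx {ψ : ℝ → Tor d → ℂ} (h : JS ψ) (t : ℝ) (x : Fin d → ℝ) (j : Fin d) (s : ℝ) :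
    HasDerivAt (fun s : ℝ => ψ t (pr x + pr (Pi.single j s)))
      (fderiv ℝ (fun q : ℝ × (Fin d → ℝ) => ψ q.1 (pr q.2)) (t, x + Pi.single j s)
        (0, Pi.single j 1)) s := by
  have h1 : ∀ s : ℝ, s • (Pi.single j 1 : Fin d → ℝ) = Pi.single j s := fun s => by
    rw [← Pi.single_smul', smul_eq_mul, mul_one]
  simpa [h1, pr_add] using h.line (t, x) (0, Pi.single j 1) s

theorem JS.dir {ψ : ℝ → Tor d → ℂ} (h : JS ψ) (v : ℝ × (Fin d → ℝ)) :
    ContDiff ℝ ∞ fun q => fderiv ℝ (fun q : ℝ × (Fin d → ℝ) => ψ q.1 (pr q.2)) q v :=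
  (h.fderiv_right (m := ∞) (by simp)).clm_apply contDiff_const

theorem JS.dt {ψ : ℝ → Tor d → ℂ} (h : JS ψ) : JS fun t z => deriv (fun s => ψ s z) t := by
  refine (congrArg (ContDiff ℝ ∞) (funext fun q => ?_)).mpr (h.dir (1, 0))
  exact (h.hasDt q.1 q.2).deriv

theorem JS.pd_eq {ψ : ℝ → Tor d → ℂ} (h : JS ψ) (t : ℝ) (x : Fin d → ℝ) (j : Fin d) :
    pd j (ψ t) (pr x) =
      fderiv ℝ (fun q : ℝ × (Fin d → ℝ) => ψ q.1 (pr q.2)) (t, x) (0, Pi.single j 1) := by
  simpa [pd] using (h.hasDx t x j 0).deriv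

theorem JS.dx {ψ : ℝ → Tor d → ℂ} (h : JS ψ) (j : Fin d) : JS fun t => pd j (ψ t) := by
  refine (congrArg (ContDiff ℝ ∞) (funext fun q => ?_)).mpr (h.dir (0, Pi.single j 1))
  exact h.pd_eq q.1 q.2 j

theorem JS.lap {ψ : ℝ → Tor d → ℂ} (h : JS ψ) : JS fun t => lap (ψ t) :=
  ContDiff.sum fun j _ => (h.dx j).dx j

theorem JS.hasDt' {ψ : ℝ → Tor d → ℂ} (h : JS ψ) (t : ℝ) (z : Tor d) :
    HasDerivAt (fun s => ψ s z) (deriv (fun s => ψ s z) t) t := by
  obtain ⟨x, rfl⟩ := pr_quot.surjective z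
  exact (h.hasDt t x).differentiableAt.hasDerivAt

theorem JS.hasDx' {ψ : ℝ → Tor d → ℂ} (h : JS ψ) (t : ℝ) (z : Tor d) (j : Fin d) (s : ℝ) :
    HasDerivAt (fun s : ℝ => ψ t (z + pr (Pi.single j s)))
      (pd j (ψ t) (z + pr (Pi.single j s))) s := by
  obtain ⟨x, rfl⟩ := pr_quot.surjective z
  rw [← pr_add x (Pi.single j s), h.pd_eq]
  exact h.hasDx t x j s

theorem JS.int_pd {ψ : ℝ → Tor d → ℂ} (h : JS ψ) (t : ℝ) (j : Fin d) :
    ∫ z, pd j (ψ t) z ∂vol d = 0 := by
  have h0 : Continuous fun q : ℝ × Tor d => (t, q.2 + pr (Pi.single j q.1)) :=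
    continuous_const.prodMk (continuous_snd.add (pr_quot.continuous.comp
      ((continuous_single j).comp continuous_fst)))
  have h1 := dui (F := fun s z => ψ t (z + pr (Pi.single j s)))
    (F' := fun s z => pd j (ψ t) (z + pr (Pi.single j s))) (h.cont.comp h0)
    ((h.dx j).cont.comp h0) (fun s z => h.hasDx' t z j s) 0
  simp only [integral_add_right_eq_self] at h1
  exact h1.unique (hasDerivAt_const _ _)

theorem js_ech (n : Fin d → ℤ) : ContDiff ℝ ∞ fun x => ech n (pr x) := by
  simp only [ech_pr, expi]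
  refine ContDiff.cexp (contDiff_const.mul (ContDiff.sum fun j _ => contDiff_const.mul ?_))
  exact Complex.ofRealCLM.contDiff.comp (contDiff_apply ℝ ℝ j)

theorem js_of {φ : Tor d → ℂ} (h : ContDiff ℝ ∞ fun x => φ (pr x)) : JS fun _ => φ :=
  h.comp contDiff_snd

theorem ech_dx (n : Fin d → ℤ) (z : Tor d) (j : Fin d) :
    HasDerivAt (fun s : ℝ => ech n (z + pr (Pi.single j s))) (Complex.I * n j * ech n z) 0 := by
  have h1 : ∀ s : ℝ, ech n (z + pr (Pi.single j s)) = ech n z * Complex.exp (Complex.I * n j * s) :=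
    fun s => by
      obtain ⟨x, rfl⟩ := pr_quot.surjective z
      rw [← pr_add, ech_pr, ech_pr, expi, expi, ← Complex.exp_add]
      congr 1
      simp only [Pi.add_apply, Complex.ofReal_add, mul_add, Finset.sum_add_distrib]
      rw [Finset.sum_eq_single (f := fun i => (n i : ℂ) * ((Pi.single j s : Fin d → ℝ) i : ℝ)) j
        (fun i _ hi => by simp [Pi.single_eq_of_ne hi]) (by simp)]
      simp [mul_assoc]
  simp only [h1]
  have h2 := ((((hasDerivAt_id (0 : ℝ)).ofReal_comp).const_mul (Complex.I * n j)).cexp).const_mul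
    (ech n z)
  simpa [mul_comm] using h2

theorem JS.cc_pd {ψ : ℝ → Tor d → ℂ} (h : JS ψ) (t : ℝ) (j : Fin d) (n : Fin d → ℤ) :
    cc (pd j (ψ t)) n = -(Complex.I * n j) * cc (ψ t) n := by
  have h1 : JS fun t z => ψ t z * ech n z := h.mul (js_of (js_ech n))
  have h2 : ∀ z, pd j (fun z => ψ t z * ech n z) z =
      pd j (ψ t) z * ech n z + Complex.I * n j * (ψ t z * ech n z) := fun z => by
    have h3 := ((h.hasDx' t z j 0).fun_mul (ech_dx n z j)).deriv
    simp only [Pi.single_zero, pr_zero, add_zero] at h3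
    rw [pd, h3]
    ring
  have h3 := h1.int_pd t j
  have h4 : ∀ {φ : ℝ → Tor d → ℂ}, JS φ → Integrable (fun z => φ t z * ech n z) (vol d) :=
    fun hφ => ((hφ.cont.comp (Continuous.prodMk_right t)).mul
      (eC n).continuous).integrable_of_hasCompactSupport (HasCompactSupport.of_compactSpace _)
  simp only [h2] at h3
  rw [integral_add (h4 (h.dx j)) ((h4 h).const_mul _), integral_const_mul] at h3
  rw [cc, cc]
  linear_combination h3

theorem JS.cc_lap {ψ : ℝ → Tor d → ℂ} (h : JS ψ) (t : ℝ) (n : Fin d → ℤ) :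
    cc (P139L.lap (ψ t)) n = -(sqNorm n : ℂ) * cc (ψ t) n := by
  have h1 : cc (P139L.lap (ψ t)) n = ∑ j, cc (pd j (pd j (ψ t))) n := by
    simp only [cc, P139L.lap, Finset.sum_mul]
    exact integral_finsetSum _ fun j _ => ((((h.dx j).dx j).cont.comp
      (Continuous.prodMk_right t)).mul (eC n).continuous).integrable_of_hasCompactSupport
        (HasCompactSupport.of_compactSpace _)
  rw [h1, sqNorm]
  push_cast
  rw [neg_mul, Finset.sum_mul, ← Finset.sum_neg_distrib]
  refine Finset.sum_congr rfl fun j _ => ?_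
  rw [(h.dx j).cc_pd t j n, h.cc_pd t j n]
  linear_combination (n j : ℂ) ^ 2 * cc (ψ t) n * Complex.I_sq

theorem JS.cc_dt {ψ : ℝ → Tor d → ℂ} (h : JS ψ) (t : ℝ) (n : Fin d → ℤ) :
    HasDerivAt (fun s => cc (ψ s) n) (cc (fun z => deriv (fun s => ψ s z) t) n) t :=
  dui (F := fun s z => ψ s z * ech n z) (F' := fun t z => deriv (fun s => ψ s z) t * ech n z)
    (h.cont.mul ((eC n).continuous.comp continuous_snd))
    (h.dt.cont.mul ((eC n).continuous.comp continuous_snd))
    (fun s z => (h.hasDt' s z).mul_const _) t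

/-- The slices of a smooth function, as continuous maps. -/
def JS.sl {ψ : ℝ → Tor d → ℂ} (h : JS ψ) : C(ℝ, C(Tor d, ℂ)) :=
  ContinuousMap.curry ⟨_, h.cont⟩

end

end Vale.Agent.P139L
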