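import Vale.Agent.P139L62.F1
import Vale.Agent.P139Z.Hk

/-!
# P139: weak derivatives and Fourier coefficients
-/

open Set MeasureTheory Filter Topology
open scoped ENNReal ContDiff

namespace Vale.Agent.P139L

open Vale.Agent.P139.A Vale.Agent.P139Z.Hk

noncomputable section

variable {d k : ℕ}

theorem pd_ech (n : Fin d → ℤ) (j : Fin d) (z : Tor d) :
    pd j (ech n) z = Complex.I * n j * ech n z := (ech_dx n z j).deriv

theorem wd_iff {j : Fin d} {f g : L2 d} :
    IsWD j f g ↔ ∀ n, co g n = Complex.I * n j * co f n := by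
  refine ⟨fun h n => ?_, fun h φ hφ => ?_⟩
  · rw [co_eq, co_eq, h _ (js_ech (-n)), ← integral_neg, ← integral_const_mul]
    refine integral_congr_ae (Eventually.of_forall fun z => ?_)
    simp only [pd_ech, Pi.neg_apply, Int.cast_neg]
    ring
  · have h0 := js_of hφ
    have h1 := parseval g (h0.sl 0)
    have h2 := (parseval f ((h0.dx j).sl 0)).neg
    refine h1.unique (h2.congr_fun fun n => ?_)
    change co g n * cc φ n = -(co f n * cc (pd j φ) n)
    rw [h, h0.cc_pd 0 j n]
    ring

/-- The relation between the coefficients of a jet. -/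
def Rel (k : ℕ) (D : List (Fin d) → L2 d) : Prop :=
  ∀ j w, w.length < k → ∀ n, co (D (j :: w)) n = Complex.I * n j * co (D w) n

/-- The squared Sobolev norm of a jet. -/
def En : ℕ → (List (Fin d) → L2 d) → ℝ
  | 0, D => ‖D []‖ ^ 2
  | k + 1, D => En k D + ∑ j, En k fun w => D (w ++ [j])

theorem jet_sum : ∀ (k : ℕ) (D : List (Fin d) → L2 d), Rel k D →
    HasSum (fun n => (1 + sqNorm n) ^ k * ‖co (D []) n‖ ^ 2) (En k D)
  | 0, D, _ => by simpa [En] using hasSum_co (D [])
  | k + 1, D, h => by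
    have h1 := jet_sum k D fun j w hw => h j w (by omega)
    have h2 := hasSum_sum (s := Finset.univ) fun j _ => jet_sum k (fun w => D (w ++ [j]))
      fun i w hw => h i (w ++ [j]) (by simpa using hw)
    refine (h1.add h2).congr_fun fun n => ?_
    simp only [List.nil_append, h _ [] (Nat.succ_pos k), norm_mul, Complex.norm_I, one_mul,
      Complex.norm_intCast, mul_pow, sq_abs]
    rw [← Finset.mul_sum, ← Finset.sum_mul, sqNorm]
    ring

theorem En_tendsto {ι : Type} {l : Filter ι} : ∀ (k : ℕ) (D : ι → List (Fin d) → L2 d),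
    (∀ w : List (Fin d), w.length ≤ k → Tendsto (fun i => D i w) l (𝓝 0)) →
      Tendsto (fun i => En k (D i)) l (𝓝 0)
  | 0, D, h => by simpa [En] using (h [] le_rfl).norm.pow 2
  | k + 1, D, h => by
    have h1 := En_tendsto k D fun w hw => h w (by omega)
    have h2 := tendsto_finsetSum Finset.univ fun (j : Fin d) _ =>
      En_tendsto k (fun i w => D i (w ++ [j])) fun w hw => h (w ++ [j]) (by simpa using hw)
    simpa [En] using h1.add h2

theorem Jet.rel {f : L2 d} {D : List (Fin d) → L2 d} (h : Jet k f D) : Rel k D :=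
  fun j w hw => wd_iff.1 (h.2 j w hw)

theorem Jet.mem {f : L2 d} {D : List (Fin d) → L2 d} (h : Jet k f D) : MemSobolev k (co f) :=
  h.1 ▸ (jet_sum k D h.rel).summable

/-- The function with coefficients `m n * x n / ⟨n⟩^k`. -/
def syn (k : ℕ) (m : (Fin d → ℤ) → ℂ) (hm : ∀ n, ‖m n‖ ≤ om k n) (x : HS d) : L2 d :=
  (FB d).repr.symm ⟨fun n => m n * cf k x n, (lp.memℓp x).mono' fun n => by
    rw [norm_mul, ← om_mul_norm (k := k) x n]
    exact mul_le_mul_of_nonneg_right (hm n) (norm_nonneg _)⟩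

theorem co_syn {m : (Fin d → ℤ) → ℂ} (hm : ∀ n, ‖m n‖ ≤ om k n) (x : HS d) (n : Fin d → ℤ) :
    co (syn k m hm x) n = m n * cf k x n := by
  rw [co, syn, LinearIsometryEquiv.apply_symm_apply]

theorem continuous_syn {m : (Fin d → ℤ) → ℂ} (hm : ∀ n, ‖m n‖ ≤ om k n) :
    Continuous (syn k m hm) := by
  refine LipschitzWith.continuous (K := 1) (LipschitzWith.of_dist_le_mul fun x y => ?_)
  rw [dist_eq_norm, dist_eq_norm, NNReal.coe_one, one_mul]
  refine (sq_le_sq₀ (norm_nonneg _) (norm_nonneg _)).1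
    (hasSum_le (fun n => ?_) (hasSum_co _) (hasSum_sq (x - y)))
  rw [co_sub, co_syn, co_syn, ← mul_sub, ← cf_sub, norm_mul, ← om_mul_norm (k := k) (x - y) n]
  gcongr
  exact hm n

/-- The multiplier of a word. -/
def mu (w : List (Fin d)) (n : Fin d → ℤ) : ℂ := (w.map fun j => Complex.I * n j).prod

theorem mu_le : ∀ (w : List (Fin d)) (n : Fin d → ℤ), ‖mu w n‖ ≤ om w.length n
  | [], n => by simp [mu, om]
  | j :: w, n => by
    have h1 : |(n j : ℝ)| ≤ √(1 + sqNorm n) := Real.abs_le_sqrt (le_add_of_nonneg_of_le zero_le_one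
      (Finset.single_le_sum (f := fun j => (n j : ℝ) ^ 2) (fun _ _ => sq_nonneg _)
        (Finset.mem_univ j)))
    have h2 := mu_le w n
    simp only [mu, om, List.map_cons, List.prod_cons, norm_mul, Complex.norm_I, one_mul,
      Complex.norm_intCast, List.length_cons, pow_succ'] at h2 ⊢
    gcongr

theorem mu_le' {w : List (Fin d)} (hw : w.length ≤ k) (n : Fin d → ℤ) : ‖mu w n‖ ≤ om k n :=
  (mu_le w n).trans (pow_le_pow_right₀
    (Real.le_sqrt_of_sq_le (by linarith [sqNorm_nonneg n])) hw)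

/-- The function with coefficients `x n / ⟨n⟩^k`. -/
def fn (k : ℕ) : HS d → L2 d := syn k (mu []) (mu_le' (Nat.zero_le k))

theorem co_fn (x : HS d) : co (fn k x) = cf k x := funext fun n => by
  rw [fn, co_syn, mu, List.map_nil, List.prod_nil, one_mul]

/-- The jet of that function. -/
def jet (k : ℕ) (x : HS d) (w : List (Fin d)) : L2 d :=
  if h : w.length ≤ k then syn k (mu w) (mu_le' h) x else 0

theorem jet_fn (x : HS d) : Jet k (fn k x) (jet k x) := by
  refine ⟨dif_pos (Nat.zero_le k), fun j w hw => wd_iff.2 fun n => ?_⟩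
  rw [jet, jet, dif_pos hw.le, dif_pos (show (j :: w).length ≤ k from hw), co_syn, co_syn, mu,
    List.map_cons, List.prod_cons, mul_assoc _ (List.prod _)]
  rfl

theorem continuous_jet {w : List (Fin d)} (hw : w.length ≤ k) :
    Continuous fun x : HS d => jet k x w := by
  simp only [jet, dif_pos hw]
  exact continuous_syn _

theorem ae_of_summable {c : (Fin d → ℤ) → ℂ} (hc : Summable fun n => ‖c n‖) :
    ∃ S : C(Tor d, ℂ), co (toL S) = c ∧ ∀ z, HasSum (fun n => c n * ech n z) (S z) := by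
  classical
  have h1 : Summable fun n => c n • eC n := .of_norm_bounded hc fun n =>
    (norm_smul_le _ _).trans (mul_le_of_le_one_right (norm_nonneg _) (norm_eC n))
  refine ⟨_, funext fun m => ?_, fun z => (ContinuousMap.hasSum_apply h1.hasSum z)⟩
  have h2 := (toL.hasSum h1.hasSum)
  simp only [map_smul] at h2
  have h3 := (innerSL ℂ (toL (eC m))).hasSum h2
  simp only [map_smul, innerSL_apply_apply, orthonormal_iff_ite.1 orth, smul_eq_mul, mul_ite,
    mul_one, mul_zero] at h3
  rw [co, (FB d).repr_apply_apply, FB_apply]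
  have h4 := hasSum_single (f := fun b => if m = b then c b else 0) m fun b hb => if_neg hb.symm
  exact h3.unique (by simpa using h4)

theorem ae_hasSum {f : L2 d} (hf : Summable fun n => ‖co f n‖) :
    ∀ᵐ z ∂vol d, HasSum (fun n => co f n * ech n z) (f z) := by
  obtain ⟨S, h1, h2⟩ := ae_of_summable hf
  filter_upwards [toL_ae S] with z hz
  have h3 := h2 z
  rwa [← hz, co_ext h1] at h3

theorem co_of_ae {c : (Fin d → ℤ) → ℂ} {f : L2 d}
    (h : ∀ᵐ z ∂vol d, HasSum (fun n => c n * ech n z) (f z)) : co f = c := by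
  obtain ⟨z₀, h0⟩ := h.exists
  obtain ⟨S, h1, h2⟩ := ae_of_summable (c := c) (by simpa [norm_ech] using h0.summable.norm)
  rw [← h1]
  refine congrArg co (Lp.ext ?_)
  filter_upwards [h, toL_ae S] with z h3 h4
  exact (h3.unique (h2 z)).trans h4.symm

theorem fn_ae (hk : d < 2 * k) (x : HS d) :
    ∀ᵐ z ∂vol d, ∀ y, pr y = z → fn k x z = series (cf k x) y := by
  have h := ae_hasSum (f := fn k x)
    (by rw [co_fn]; exact Vale.Agent.P139Z.Persist.summable_of_memSobolev hk (mem_cf x))
  filter_upwards [h] with z hz y hy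
  rw [← hz.tsum_eq, co_fn, ← hy]
  simp only [series, ech_pr]

theorem series_NH (hk : d < 2 * k) (m : ℕ) (x : HS d) (y : Fin d → ℝ) :
    (‖series (cf k x) y‖ : ℂ) ^ (2 * m + 1 - 1) * series (cf k x) y =
      series (cf k (NH hk m x)) y := by
  have e : ∀ x : HS d, cf k x = WA.coef (J hk x) := fun x => funext fun n => (coef_J hk _ n).symm
  rw [e, e, J_NH, Nat.add_sub_cancel]
  exact (WA.ev_F m _ y).symm

theorem nl_ae (hk : d < 2 * k) (m : ℕ) (x : HS d) : ∀ᵐ z ∂vol d,
    (‖fn k x z‖ : ℂ) ^ (2 * m + 1 - 1) * fn k x z = fn k (NH hk m x) z := by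
  filter_upwards [fn_ae hk x, fn_ae hk (NH hk m x)] with z h1 h2
  obtain ⟨y, hy⟩ := pr_quot.surjective z
  rw [h1 y hy, h2 y hy, series_NH]

theorem nl_coef (hk : d < 2 * k) (m : ℕ) (x : HS d) (n : Fin d → ℤ) :
    fourierCoef (fun y => (‖series (cf k x) y‖ : ℂ) ^ (2 * m + 1 - 1) * series (cf k x) y) n =
      cf k (NH hk m x) n := by
  simp only [series_NH hk]
  exact congrFun (funext (fourierCoef_series
    (Vale.Agent.P139Z.Persist.summable_of_memSobolev hk (mem_cf _)))) n

theorem continuous_NH (hk : d < 2 * k) (m : ℕ) : Continuous (NH hk m) := by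
  refine continuous_iff_continuousAt.2 fun x => ?_
  obtain ⟨L, hL, -, h⟩ := NH_bound hk m (R := ‖x‖ + 1) (by positivity)
  rw [ContinuousAt, tendsto_iff_norm_sub_tendsto_zero]
  have h1 : Tendsto (fun y : HS d => L * ‖y - x‖) (𝓝 x) (𝓝 0) := by
    simpa using (tendsto_iff_norm_sub_tendsto_zero.1 (tendsto_id (x := 𝓝 x))).const_mul L
  refine squeeze_zero' (Eventually.of_forall fun _ => norm_nonneg _) ?_ h1
  filter_upwards [continuous_norm.continuousAt.eventually_lt_const (lt_add_one ‖x‖)] with y hy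
  exact h y x hy.le (by linarith)

end

end Vale.Agent.P139L
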