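import Vale.Agent.P139L62.F2
import Vale.Agent.P139L23.Dbr
import Vale.Agent.P139.H203.Emb

/-!
# P139: distributional solutions and solutions mode by mode; the maximal solution
-/

open Set MeasureTheory Filter Topology Complex
open scoped ENNReal ContDiff NNReal

namespace Vale.Agent.P139L

open Vale.Agent.P139.A Vale.Agent.P139Z.Hk

noncomputable section

variable {d k m : ℕ} {T : ℝ≥0∞}

open Classical in
/-- The element of the sequence space with given coefficients. -/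
def lift (k : ℕ) (a : (Fin d → ℤ) → ℂ) : HS d := if h : MemSobolev k a then mkH a h else 0

theorem cf_lift {a : (Fin d → ℤ) → ℂ} (h : MemSobolev k a) : cf k (lift k a) = a := by
  rw [lift, dif_pos h]
  exact funext (cf_mkH a h)

theorem cont_lift {s : Set ℝ} {a : ℝ → (Fin d → ℤ) → ℂ} (hm : ∀ t ∈ s, MemSobolev k (a t))
    (hc : ∀ t ∈ s, Tendsto (fun r => sobolevSq k fun n => a r n - a t n) (𝓝[s] t) (𝓝 0)) :
    ContinuousOn (fun t => lift k (a t)) s := fun t ht => by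
  rw [ContinuousWithinAt, tendsto_iff_norm_sub_tendsto_zero]
  have h1 := (hc t ht).sqrt
  rw [Real.sqrt_zero] at h1
  refine h1.congr' ?_
  filter_upwards [self_mem_nhdsWithin] with r hr
  rw [← Real.sqrt_sq (norm_nonneg _), ← sob_cf (k := k)]
  simp only [funext (cf_sub _ _), cf_lift (hm r hr), cf_lift (hm t ht)]

theorem exists_gt {c : ℝ} (hc : ENNReal.ofReal c < T) : ∃ b ∈ dom T, c < b := by
  obtain ⟨r, h0, h1, h2⟩ := ENNReal.lt_iff_exists_real_btwn.1 hc
  exact ⟨r, ⟨h0, h2⟩, (ENNReal.ofReal_lt_ofReal_iff'.1 h1).1⟩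

theorem Icc_sub {b : ℝ} (hb : b ∈ dom T) : Icc 0 b ⊆ dom T :=
  fun _ ht => ⟨ht.1, (ENNReal.ofReal_le_ofReal ht.2).trans_lt hb.2⟩

/-- The space integral in the weak formulation. -/
def Wk (p : ℕ) (f : L2 d) (ψ : ℝ → Tor d → ℂ) (t : ℝ) : ℂ :=
  ∫ z, (-I * (f z * deriv (fun s => ψ s z) t) + f z * lap (ψ t) z -
    (‖f z‖ : ℂ) ^ (p - 1) * f z * ψ t z) ∂vol d

theorem Wk_restr {p : ℕ} {u : ℝ → L2 d} {ψ : ℝ → Tor d → ℂ} {a c b : ℝ} (ha : 0 < a) (hc : c < b)
    (hb : b ∈ dom T) (h : ∀ t ∉ Icc a c, ψ t = 0) :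
    ∫ t in dom T, Wk p (u t) ψ t = ∫ t in Icc 0 b, Wk p (u t) ψ t := by
  refine setIntegral_eq_of_subset_of_forall_sdiff_eq_zero
    (measurableSet_Ici.inter (ENNReal.measurable_ofReal measurableSet_Iio)) (Icc_sub hb)
    fun t ht => ?_
  have h1 : t ∉ Icc a c := fun h2 => ht.2 ⟨ha.le.trans h2.1, h2.2.trans hc.le⟩
  have h2 : ∀ z, deriv (fun s => ψ s z) t = 0 := fun z => by
    rw [EventuallyEq.deriv_eq (f := fun _ => 0), deriv_const]
    filter_upwards [isClosed_Icc.isOpen_compl.mem_nhds h1] with s hs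
    rw [h s hs, Pi.zero_apply]
  have h3 : ∀ j : Fin d, pd j 0 = 0 := fun j => funext fun z => by simp [pd]
  simp [Wk, h2, h t h1, lap, h3]

theorem int_mul (f : L2 d) (φ : C(Tor d, ℂ)) : Integrable (fun z => f z * φ z) (vol d) :=
  ((Lp.memLp f).integrable one_le_two).mul_bdd φ.continuous.aestronglyMeasurable
    (Eventually.of_forall φ.norm_coe_le_norm)

theorem int3 {X : Type} [MeasurableSpace X] {μ : Measure X} {f g h : X → ℂ} (hf : Integrable f μ)
    (hg : Integrable g μ) (hh : Integrable h μ) :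
    ∫ x, (-I * f x + g x - h x) ∂μ = -I * ∫ x, f x ∂μ + ∫ x, g x ∂μ - ∫ x, h x ∂μ := by
  rw [← integral_const_mul, ← integral_add (hf.const_mul _) hg]
  exact integral_sub ((hf.const_mul _).add hg) hh

theorem Wk_eq (hk : d < 2 * k) (x : HS d) {ψ : ℝ → Tor d → ℂ} (h : JS ψ) (t : ℝ) :
    Wk (2 * m + 1) (fn k x) ψ t = -I * ∫ z, fn k x z * h.dt.sl t z ∂vol d +
      ∫ z, fn k x z * h.lap.sl t z ∂vol d - ∫ z, fn k (NH hk m x) z * h.sl t z ∂vol d := by
  rw [← int3 (int_mul _ _) (int_mul _ _) (int_mul _ _)]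
  refine integral_congr_ae ?_
  filter_upwards [nl_ae hk m x] with z hz
  rw [hz]
  rfl

theorem pd_mul_ech (c : ℂ) (n : Fin d → ℤ) (j : Fin d) :
    pd j (fun z => c * ech n z) = fun z => c * (I * n j) * ech n z :=
  funext fun z => ((ech_dx n z j).const_mul c).deriv.trans (mul_assoc _ _ _).symm

theorem Sol.modes (hk : d < 2 * k) {u : ℝ → L2 d} (h : Sol (2 * m + 1) k T u) {b : ℝ}
    (hb : b ∈ dom T) : IsSolution d (2 * m + 1) k b fun t => co (u t) := by
  obtain ⟨⟨D, hD, hc⟩, he⟩ := h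
  have hs := Icc_sub hb
  have h1 : ∀ t ∈ Icc 0 b, MemSobolev k (co (u t)) := fun t ht => (hD t (hs ht)).mem
  have h2 : ∀ t ∈ Icc 0 b, Tendsto (fun r => sobolevSq k fun n => co (u r) n - co (u t) n)
      (𝓝[Icc 0 b] t) (𝓝 0) := fun t ht => by
    refine (En_tendsto k (fun r w => D r w - D t w) fun w hw =>
      tendsto_sub_nhds_zero_iff.2 ((hc w hw).mono hs t ht)).congr' ?_
    filter_upwards [self_mem_nhdsWithin] with r hr
    rw [← (jet_sum k (fun w => D r w - D t w) fun j w hw n => by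
      rw [co_sub, co_sub, (hD r (hs hr)).rel j w hw, (hD t (hs ht)).rel j w hw, mul_sub]).tsum_eq]
    simp only [co_sub, (hD r (hs hr)).1, (hD t (hs ht)).1, sobolevSq]
  refine ⟨h1, h2, fun t ht n => ?_⟩
  have hX := cont_lift h1 h2
  set X := fun t => lift k (co (u t)) with hXd
  have h3 : ∀ t ∈ Icc 0 b, cf k (X t) = co (u t) := fun t ht => cf_lift (h1 t ht)
  have h4 : ∀ t ∈ Icc 0 b, u t = fn k (X t) := fun t ht => co_ext (by rw [co_fn, h3 t ht])
  have hF : ContinuousOn (fun t => cf k (X t) n) (Icc 0 b) :=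
    (cfL k n).continuous.comp_continuousOn hX
  have hN : ContinuousOn (fun t => cf k (NH hk m (X t)) n) (Icc 0 b) :=
    ((cfL k n).continuous.comp (continuous_NH hk m)).comp_continuousOn hX
  have h5 := P139L23.dbr (G := fun t => -I * (sqNorm n * cf k (X t) n + cf k (NH hk m (X t)) n)) hF
    (continuousOn_const.mul ((continuousOn_const.mul hF).add hN)) (fun η hη ⟨a, c, ha, hc, h0⟩ => ?_)
    t ht
  · refine ⟨_, h5.congr (fun s hs => (congrFun (h3 s hs) n).symm) (congrFun (h3 t ht) n).symm, ?_⟩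
    simp only [← h3 t ht]
    rw [nl_coef hk]
    linear_combination (-(sqNorm n * cf k (X t) n + cf k (NH hk m (X t)) n)) * I_sq
  · have hψ : JS fun t z => (η t : ℂ) * ech (-n) z :=
      (ofRealCLM.contDiff.comp (hη.comp contDiff_fst)).mul (js_of (js_ech (-n)))
    have h6 : ∀ t ∉ Icc a c, (fun z => (η t : ℂ) * ech (-n) z) = 0 := fun t ht =>
      funext fun z => by simp [h0 t ht]
    have h7 := he (fun t z => (η t : ℂ) * ech (-n) z) ⟨hψ, a, c, ha, (ENNReal.ofReal_le_ofReal hc.le).trans_lt hb.2, h6⟩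
    have h8 := (Wk_restr (p := 2 * m + 1) (u := u) ha hc hb h6).symm.trans h7
    rw [← mul_zero I, ← h8, ← integral_const_mul]
    refine setIntegral_congr_fun measurableSet_Icc fun t ht => ?_
    have e1 : ∀ z, hψ.dt.sl t z = (deriv η t : ℝ) * ech (-n) z := fun z =>
      (((hη.differentiable (by simp)) t).hasDerivAt.ofReal_comp.mul_const _).deriv
    have e2 : ∀ z, hψ.lap.sl t z = -(η t * sqNorm n) * ech (-n) z := fun z => by
      change ∑ j, pd j (pd j fun z => (η t : ℂ) * ech (-n) z) z = _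
      simp only [pd_mul_ech, sqNorm, ← Finset.sum_mul]
      congr 1
      push_cast
      rw [Finset.mul_sum, ← Finset.sum_neg_distrib]
      refine Finset.sum_congr rfl fun j _ => ?_
      simp only [Pi.neg_apply, Int.cast_neg]
      linear_combination (η t : ℂ) * (n j : ℂ) ^ 2 * I_sq
    have e3 : ∀ z, hψ.sl t z = η t * ech (-n) z := fun z => rfl
    rw [h4 t ht, Wk_eq hk _ hψ]
    simp only [e1, e2, e3, mul_left_comm (_ : ℂ) _ (ech (-n) _), integral_const_mul, ← co_eq, co_fn]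
    linear_combination (deriv η t : ℝ) * cf k (X t) n * I_sq

theorem hasSum_bd (f g : L2 d) :
    HasSum (fun n => ‖co f n‖ ^ 2 + ‖co g (-n)‖ ^ 2) (‖f‖ ^ 2 + ‖g‖ ^ 2) :=
  (hasSum_co f).add ((Equiv.neg _).hasSum_iff.2 (hasSum_co g))

theorem pair_int {b : ℝ} {x : ℝ → L2 d} (hx : ContinuousOn x (Icc 0 b)) (y : C(ℝ, C(Tor d, ℂ))) :
    (∀ n, ContinuousOn (fun t => co (x t) n * cc (y t) n) (Icc 0 b)) ∧
    IntegrableOn (fun t => ∫ z, x t z * y t z ∂vol d) (Icc 0 b) ∧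
    HasSum (fun n => ∫ t in Icc 0 b, co (x t) n * cc (y t) n)
      (∫ t in Icc 0 b, ∫ z, x t z * y t z ∂vol d) := by
  have hy : Continuous fun t => toL (y t) := toL.continuous.comp y.continuous
  have h1 : ∀ n, ContinuousOn (fun t => co (x t) n * cc (y t) n) (Icc 0 b) := fun n => by
    simp only [← co_toL]
    exact ((continuous_co n).comp_continuousOn hx).mul ((continuous_co _).comp hy).continuousOn
  refine ⟨h1, ContinuousOn.integrableOn_Icc ?_, hasSum_integral_of_dominated_convergence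
    (fun n t => ‖co (x t) n‖ ^ 2 + ‖co (toL (y t)) (-n)‖ ^ 2)
    (fun n => (h1 n).aestronglyMeasurable measurableSet_Icc)
    (fun n => Eventually.of_forall fun t => ?_)
    (Eventually.of_forall fun t => (hasSum_bd _ _).summable) ?_
    (Eventually.of_forall fun t => parseval _ _)⟩
  · have h2 : ∀ t, ∫ z, x t z * y t z ∂vol d = inner ℂ (toL (star (y t))) (x t) := fun t => by
      rw [L2.inner_def]
      refine integral_congr_ae ?_
      filter_upwards [toL_ae (star (y t))] with z hz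
      rw [RCLike.inner_apply, hz]
      simp
    simp only [h2]
    exact (toL.continuous.comp y.continuous.star).continuousOn.inner hx
  · rw [norm_mul, ← co_toL]
    nlinarith [sq_nonneg (‖co (x t) n‖ - ‖co (toL (y t)) (-n)‖), norm_nonneg (co (x t) n),
      norm_nonneg (co (toL (y t)) (-n))]
  · simp only [(hasSum_bd _ _).tsum_eq]
    exact ((hx.norm.pow 2).add (hy.norm.pow 2).continuousOn).integrableOn_Icc

theorem sol_of_modes (hk : d < 2 * k) {a : ℝ → (Fin d → ℤ) → ℂ}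
    (h : ∀ b ∈ dom T, IsSolution d (2 * m + 1) k b a) :
    Sol (2 * m + 1) k T fun t => fn k (lift k (a t)) := by
  set X := fun t => lift k (a t) with hXd
  have hX : ∀ b ∈ dom T, ContinuousOn X (Icc 0 b) := fun b hb =>
    cont_lift (h b hb).mem (h b hb).cont
  refine ⟨⟨fun t => jet k (X t), fun t _ => jet_fn _, fun w hw =>
    (continuous_jet hw).comp_continuousOn fun t ht => ?_⟩, fun ψ ⟨hψ, a₀, c, ha, hc, h0⟩ => ?_⟩
  · obtain ⟨b, hb, htb⟩ := exists_gt ht.2
    refine (hX b hb t ⟨ht.1, htb.le⟩).mono_of_mem_nhdsWithin ?_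
    filter_upwards [self_mem_nhdsWithin, mem_nhdsWithin_of_mem_nhds (Iio_mem_nhds htb)] with s h1 h2
    exact ⟨h1.1, le_of_lt h2⟩
  obtain ⟨b, hb, hcb⟩ := exists_gt hc
  replace hψ : JS ψ := hψ
  refine (Wk_restr (p := 2 * m + 1) (u := fun t => fn k (X t)) ha hcb hb h0).trans ?_
  have hf : Continuous (fn (d := d) k) := continuous_syn _
  have hu := hf.comp_continuousOn (hX b hb)
  have hv := (hf.comp (continuous_NH hk m)).comp_continuousOn (hX b hb)
  obtain ⟨c1, i1, s1⟩ := pair_int hu hψ.dt.sl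
  obtain ⟨c2, i2, s2⟩ := pair_int hu hψ.lap.sl
  obtain ⟨c3, i3, s3⟩ := pair_int hv hψ.sl
  simp only [Wk_eq hk _ hψ]
  simp only [Function.comp_apply, co_fn] at c1 c2 c3 i1 i2 i3 s1 s2 s3
  rw [int3 i1 i2 i3]
  refine (((s1.mul_left (-I)).add s2).sub s3).unique (hasSum_zero.congr_fun fun n => ?_)
  have j1 := (c1 n).integrableOn_Icc (μ := volume)
  have j2 := (c2 n).integrableOn_Icc (μ := volume)
  have j3 := (c3 n).integrableOn_Icc (μ := volume)
  rw [← int3 j1 j2 j3, integral_Icc_eq_integral_Ioc, ← intervalIntegral.integral_of_le hb.1]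
  refine (intervalIntegral.integral_eq_sub_of_hasDerivAt_of_le
    (f := fun t => -I * (cf k (X t) n * cc (ψ t) n)) hb.1 ?_ (fun t ht => ?_)
    ((intervalIntegrable_iff_integrableOn_Icc_of_le hb.1).2
      (((j1.const_mul (-I)).add j2).sub j3))).trans ?_
  rotate_right
  · simp [h0 b fun h1 => h1.2.not_gt hcb, h0 0 fun h1 => h1.1.not_gt ha, cc]
  · exact continuousOn_const.mul (((cfL k n).continuous.comp_continuousOn (hX b hb)).mul
      (continuous_iff_continuousAt.2 fun t => (hψ.cc_dt t n).continuousAt).continuousOn)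
  · have ht' := Ioo_subset_Icc_self ht
    have h3 : ∀ s ∈ Icc 0 b, cf k (X s) = a s := fun s hs => cf_lift ((h b hb).mem s hs)
    obtain ⟨v, hv1, hv2⟩ := (h b hb).eqn t ht' n
    rw [← h3 t ht', nl_coef hk] at hv2
    have h4 := ((hv1.congr (fun s hs => congrFun (h3 s hs) n) (congrFun (h3 t ht') n)).hasDerivAt
      (Icc_mem_nhds ht.1 ht.2)).fun_mul (hψ.cc_dt t n)
    refine (h4.const_mul (-I)).congr_deriv ?_
    change _ = -I * (_ * cc (fun z => deriv (fun s => ψ s z) t) n) + _ * cc (lap (ψ t)) n -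
      _ * cc (ψ t) n
    rw [hψ.cc_lap]
    linear_combination (-cc (ψ t) n) * hv2

theorem restr {p : ℕ} {b c : ℝ} {u v : ℝ → (Fin d → ℤ) → ℂ} (h : IsSolution d p k c u)
    (hb : b ≤ c) (e : ∀ t ∈ Icc 0 b, v t = u t) : IsSolution d p k b v := by
  have hs : Icc 0 b ⊆ Icc 0 c := Icc_subset_Icc_right hb
  refine ⟨fun t ht => e t ht ▸ h.mem t (hs ht), fun t ht => ?_, fun t ht n => ?_⟩
  · refine ((h.cont t (hs ht)).mono_left (nhdsWithin_mono _ hs)).congr' ?_
    filter_upwards [self_mem_nhdsWithin] with r hr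
    rw [e r hr, e t ht]
  · obtain ⟨w, h1, h2⟩ := h.eqn t (hs ht) n
    exact ⟨w, (h1.mono hs).congr (fun s hs => congrFun (e s hs) n) (congrFun (e t ht) n),
      e t ht ▸ h2⟩

theorem Sol.le (hk : d < 2 * k) {u : ℝ → L2 d} (h : Sol (2 * m + 1) k T u) :
    T ≤ lifespan d (2 * m + 1) k (co (u 0)) := by
  refine not_lt.1 fun hlt => ?_
  obtain ⟨r, h0, h1, h2⟩ := ENNReal.lt_iff_exists_real_btwn.1 hlt
  exact h1.not_ge (Vale.Agent.P139.lifespan_ge h0 ⟨_, rfl, h.modes hk ⟨h0, h2⟩⟩)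

theorem Sol.unique (hk : d < 2 * k) {T' : ℝ≥0∞} {u u' : ℝ → L2 d} (h : Sol (2 * m + 1) k T u)
    (h' : Sol (2 * m + 1) k T' u') (e : u 0 = u' 0) {t : ℝ} (ht : t ∈ dom T) (ht' : t ∈ dom T') :
    u t = u' t :=
  co_ext (Vale.Agent.P139.H203.unique hk (h.modes hk ht) (h'.modes hk ht') (congrArg co e) t
    ⟨ht.1, le_rfl⟩)

theorem exists_max (hk : d < 2 * k) {u₀ : L2 d} (h : InH k u₀) : ∃ T u, 0 < T ∧
    IsMax (2 * m + 1) k u₀ T u ∧ (∀ T' u', Sol (2 * m + 1) k T' u' → u' 0 = u₀ →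
      T' ≤ T ∧ EqOn u' u (dom T')) ∧ ∀ T' u', IsMax (2 * m + 1) k u₀ T' u' → T' = T := by
  obtain ⟨D, hD⟩ := h
  have h0 := Vale.Agent.P139Z.lifespan_pos_of_mem (m := m) hk hD.mem
  set T := lifespan d (2 * m + 1) k (co u₀) with hT
  have h1 : ∀ t : ℝ, ∃ v, t ∈ dom T → IsSolution d (2 * m + 1) k t v ∧ v 0 = co u₀ := fun t => by
    by_cases ht : t ∈ dom T
    · obtain ⟨c, hc⟩ := lt_iSup_iff.1 ht.2
      obtain ⟨⟨v, h1, h2⟩, h3⟩ := lt_iSup_iff.1 hc
      rw [← ENNReal.ofReal_coe_nnreal] at h3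
      exact ⟨v, fun _ => ⟨restr h1 (ENNReal.ofReal_lt_ofReal_iff'.1 h3).1.le fun _ _ => rfl, h2⟩⟩
    · exact ⟨0, fun h => (ht h).elim⟩
  choose v hv using h1
  have h2 := sol_of_modes (m := m) (T := T) hk (a := fun t => v t t) fun b hb =>
    restr (hv b hb).1 le_rfl fun t ht => Vale.Agent.P139.H203.unique hk (hv t (Icc_sub hb ht)).1
      (restr (hv b hb).1 ht.2 fun _ _ => rfl) ((hv t (Icc_sub hb ht)).2.trans (hv b hb).2.symm) t
      ⟨ht.1, le_rfl⟩
  have hz : (0 : ℝ) ∈ dom T := ⟨le_rfl, by simpa using h0⟩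
  have h3 : fn k (lift k (v 0 0)) = u₀ := co_ext (by rw [co_fn, (hv 0 hz).2, cf_lift hD.mem])
  have h4 : ∀ T' u', Sol (2 * m + 1) k T' u' → u' 0 = u₀ →
      T' ≤ T ∧ EqOn u' (fun t => fn k (lift k (v t t))) (dom T') := fun T' u' h5 h6 =>
    have h7 : T' ≤ T := (h5.le hk).trans_eq (by rw [h6])
    ⟨h7, fun t ht => h5.unique hk h2 (h6.trans h3.symm) ht ⟨ht.1, ht.2.trans_le h7⟩⟩
  exact ⟨T, _, h0, ⟨h2, h3, fun T' u' h5 h6 h7 =>
    le_antisymm (h4 T' u' h5 ((h7 hz).symm.trans h3)).1 h6⟩, h4, fun T' u' h5 =>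
      (h5.2.2 T _ h2 (h4 T' u' h5.1 h5.2.1).1 (h4 T' u' h5.1 h5.2.1).2).symm⟩

theorem datum_of_mem (hk : d < 2 * k) {Ω : Type} {g : (Fin d → ℤ) → Ω → ℂ} {α : ℝ} {o : Ω}
    (h : MemSobolev k (datum g α o)) : ∃ u₀, IsDatum g α o u₀ ∧ InH k u₀ := by
  have h1 : co (fn k (lift k (datum g α o))) = datum g α o := by rw [co_fn, cf_lift h]
  have h2 := ae_hasSum (f := fn k (lift k (datum g α o)))
    (by rw [h1]; exact Vale.Agent.P139Z.Persist.summable_of_memSobolev hk h)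
  rw [h1] at h2
  exact ⟨_, h2, _, jet_fn _⟩

end

end Vale.Agent.P139L
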